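import Vale.Agent.P207.FDefs

/-!
# P207, test maps: definitions
-/

open scoped Manifold ContDiff ENNReal Topology unitInterval
open MeasureTheory

noncomputable section

namespace Vale.Agent.P207T

open Vale.Agent.P255 (RMetric innerAt)
open Vale.Agent.P207F

variable {E : Type} [NormedAddCommGroup E] [NormedSpace ℝ E] {M : Type} [TopologicalSpace M]
  [ChartedSpace E M]

/-- The `C¹` maps of `M` into itself which are homotopic to the identity. -/
def IsC1Id (E : Type) [NormedAddCommGroup E] [NormedSpace ℝ E] {M : Type} [TopologicalSpace M]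
    [ChartedSpace E M] (f : M → M) : Prop :=
  ContMDiff 𝓘(ℝ, E) 𝓘(ℝ, E) 1 f ∧
    ∃ H : I × M → M, Continuous H ∧ (∀ x, H (0, x) = x) ∧ ∀ x, H (1, x) = f x

variable [IsManifold 𝓘(ℝ, E) ∞ M]

/-- A test map from `g₀` to `g₁` with speed bound `w`: `F` is a homotopy from the base point
projection `UT g₀ → M` to the map `Ψ = F (1, ·)`, which is differentiable along the geodesic flow
of `g₀` with a velocity of `g₁`-length at most `w`. -/
def IsTestMap (g₀ g₁ : RMetric E M) (F : I × UT g₀ → M) (w : UT g₀ → ℝ) : Prop :=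
  Continuous F ∧ (∀ p, F (0, p) = p.pt) ∧ Continuous w ∧
    ∀ p, ∃ V : E,
      HasDerivAt (fun t => chartAt E (F (1, p)) (F (1, geoFlow g₀ t p))) V 0 ∧
        Real.sqrt (innerAt g₁ (F (1, p)) V V) ≤ w p

/-- The average of `w` over the unit tangent bundle of `g₀` (Liouville measure). -/
def avg [MeasureSpace E] [MeasurableSpace M] {n : ℕ} (b : Fin n → E) (g₀ : RMetric E M)
    (w : UT g₀ → ℝ) : ℝ :=
  ∫ p, w p ∂(liou b g₀)

/-- The square of the `g₁`-length of the image of the unit vector `p` under the derivative of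
`f`. -/
def sqLen (g₀ g₁ : RMetric E M) (f : M → M) (p : UT g₀) : ℝ :=
  innerAt g₁ (f p.pt) (mfderiv 𝓘(ℝ, E) 𝓘(ℝ, E) f p.pt p.vec)
    (mfderiv 𝓘(ℝ, E) 𝓘(ℝ, E) f p.pt p.vec)

/-- The average stretch of `f : (M, g₀) → (M, g₁)`. -/
def stretch [MeasureSpace E] [MeasurableSpace M] {n : ℕ} (b : Fin n → E)
    (g₀ g₁ : RMetric E M) (f : M → M) : ℝ :=
  avg b g₀ fun p => Real.sqrt (sqLen g₀ g₁ f p)

/-- The average of `|df(v)|²` (the energy of `f : (M, g₀) → (M, g₁)`, up to the factor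
`n vol(g₀) / 2`). -/
def energy [MeasureSpace E] [MeasurableSpace M] {n : ℕ} (b : Fin n → E)
    (g₀ g₁ : RMetric E M) (f : M → M) : ℝ :=
  avg b g₀ (sqLen g₀ g₁ f)

/-- `f` is a homothety (a local isometry up to the factor `c`): `f^* g₁ = c g₀`. -/
def IsHomothety (g₀ g₁ : RMetric E M) (f : M → M) (c : ℝ) : Prop :=
  ∀ (x : M) (v w : TangentSpace 𝓘(ℝ, E) x),
    innerAt g₁ (f x) (mfderiv 𝓘(ℝ, E) 𝓘(ℝ, E) f x v)
      (mfderiv 𝓘(ℝ, E) 𝓘(ℝ, E) f x w) = c * innerAt g₀ x v w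

/-- Test maps, with averages `A` (from `g₀` to `g₁`) and `A'` (back): (1) `h_L(g₀) ≤ A h_top(g₁)`;
(2) if `h_L = h_top` for `g₀` then `h_L(g₁) ≤ A A' h_top(g₁)`; (3) if `g₀` is locally symmetric and
`A A' < 1` then `h_L(g₁) < h_top(g₁)` and `g₁` is not locally symmetric. -/
def TestCase [MeasureSpace E] [MeasurableSpace M] {n : ℕ} (b : Fin n → E)
    (g₀ g₁ : RMetric E M) : Prop :=
  ∀ (F : I × UT g₀ → M) (w : UT g₀ → ℝ), IsTestMap g₀ g₁ F w →
    hLiou b g₀ ≤ ENNReal.ofReal (avg b g₀ w) * hTop g₁ ∧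
    ∀ (F' : I × UT g₁ → M) (w' : UT g₁ → ℝ), IsTestMap g₁ g₀ F' w' →
      (hLiou b g₀ = hTop g₀ →
        hLiou b g₁ ≤ ENNReal.ofReal (avg b g₀ w * avg b g₁ w') * hTop g₁) ∧
      (LocSymmetric g₀ → avg b g₀ w * avg b g₁ w' < 1 →
        hLiou b g₁ < hTop g₁ ∧ ¬ LocSymmetric g₁)

/-- `C¹` maps `f, f'` homotopic to the identity: (4) `v ↦ f (x)`, `v ∈ T_x M`, is a
test map with `w (v) = |df (v)|`;
(5) if `h_L = h_top` for both metrics then the products of the average stretches and of the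
energies of `f : g₀ → g₁` and `f' : g₁ → g₀` are at least one, and the second one is one only if
`f` is a homothety; (6) if `g₀` is locally symmetric and one of the products is less than one then
`h_L(g₁) < h_top(g₁)` and `g₁` is not locally symmetric. -/
def MapCase [MeasureSpace E] [MeasurableSpace M] {n : ℕ} (b : Fin n → E)
    (g₀ g₁ : RMetric E M) : Prop :=
  ∀ f : M → M, IsC1Id E f →
    (∃ F : I × UT g₀ → M, (∀ p, F (1, p) = f p.pt) ∧
      IsTestMap g₀ g₁ F fun p => Real.sqrt (sqLen g₀ g₁ f p)) ∧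
    ∀ f' : M → M, IsC1Id E f' →
      (hLiou b g₀ = hTop g₀ → hLiou b g₁ = hTop g₁ →
        1 ≤ stretch b g₀ g₁ f * stretch b g₁ g₀ f' ∧ 1 ≤ energy b g₀ g₁ f * energy b g₁ g₀ f' ∧
          (energy b g₀ g₁ f * energy b g₁ g₀ f' ≤ 1 → ∃ c : ℝ, 0 < c ∧ IsHomothety g₀ g₁ f c)) ∧
      (LocSymmetric g₀ → (stretch b g₀ g₁ f * stretch b g₁ g₀ f' < 1 ∨
          energy b g₀ g₁ f * energy b g₁ g₀ f' < 1) →
        hLiou b g₁ < hTop g₁ ∧ ¬ LocSymmetric g₁)

end Vale.Agent.P207T
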