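import Vale.Agent.P207.R2.H193.Test

/-!
# P207, test maps: the statements in terms of the final definitions
-/

open scoped Manifold ContDiff ENNReal Topology unitInterval
open Bundle MeasureTheory Set Filter

noncomputable section

namespace Vale.Agent.P207T

open Vale.Agent.P255 (RMetric innerAt)
open Vale.Agent.P207F
open Vale.Agent.P207.H608 (TestMap)
open Vale.Agent.P207.R2.H193 (exists_testMap exists_testMap_of_map one_sided' defect strict_of_lt)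

variable {n : ℕ} {M : Type} [TopologicalSpace M] [ChartedSpace (EV n) M]
  [IsManifold 𝓘(ℝ, EV n) ∞ M] [CompactSpace M] [T2Space M] [ConnectedSpace M]
  [MeasurableSpace M] [BorelSpace M] {g₀ g₁ : RMetric (EV n) M}

theorem toTest (h₁ : Vale.Agent.P255.Npc (Vale.Agent.P207.mt g₁)) {F : I × UT g₀ → M}
    {w : UT g₀ → ℝ} (h : IsTestMap g₀ g₁ F w) :
    ∃ Θ : TestMap g₀ g₁ h₁ (geoFlow g₀), Θ.w = w := by
  obtain ⟨hF, hF0, hw, hV⟩ := h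
  refine exists_testMap h₁ hF hF0 hw fun p => ?_
  obtain ⟨V, hV1, hV2⟩ := hV p
  refine ⟨V, hV1, le_trans (le_of_eq ?_) hV2⟩
  unfold Vale.Agent.P255.ExpSys.nrm
  rw [Vale.Agent.P207.sys_ip]
  exact congrArg Real.sqrt (Vale.Agent.P207.ip_eq g₁ _ _ _)

theorem ofMap (h₁ : Vale.Agent.P255.Npc (Vale.Agent.P207.mt g₁)) (hW : WellDefined (stdB n) g₀)
    {f : M → M} (h : IsC1Id (EV n) f) :
    ∃ Θ : TestMap g₀ g₁ h₁ (geoFlow g₀), Θ.w = fun p => Real.sqrt (sqLen g₀ g₁ f p) := by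
  obtain ⟨hf, H, hH, hH0, hH1⟩ := h
  have hφ := (hW.1 _).2 rfl
  exact exists_testMap_of_map (g₀ := g₀) (φ := geoFlow g₀) hφ h₁ hf hH hH0 hH1

/-- (1): the stretch inequality with a test map. -/
theorem test_le (hn : 2 ≤ n) (hN₀ : NegCurvature g₀) (hN₁ : NegCurvature g₁)
    {F : I × UT g₀ → M} {w : UT g₀ → ℝ} (h : IsTestMap g₀ g₁ F w) :
    hLiou (stdB n) g₀ ≤ ENNReal.ofReal (avg (stdB n) g₀ w) * hTop g₁ := by
  have hW := fun g : RMetric (EV n) M => wellDefined hn g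
  obtain ⟨Θ, hΘ⟩ := toTest (Vale.Agent.P207.npc_of_neg hN₁) h
  have h1 := one_sided' hn hN₀ hN₁ (((hW g₀).1 _).2 rfl) (((hW g₁).1 _).2 rfl)
    (((hW g₀).2.1 _).2 rfl) (((hW g₀).2.2 _).2 rfl) Θ
  rw [hΘ] at h1
  exact h1

/-- (2): the entropy defect of `g₁`. -/
theorem defect_le (hn : 2 ≤ n) (hN₀ : NegCurvature g₀) (hN₁ : NegCurvature g₁)
    {F : I × UT g₀ → M} {w : UT g₀ → ℝ} (h : IsTestMap g₀ g₁ F w)
    {F' : I × UT g₁ → M} {w' : UT g₁ → ℝ} (h' : IsTestMap g₁ g₀ F' w')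
    (e₀ : hLiou (stdB n) g₀ = hTop g₀) :
    hLiou (stdB n) g₁ ≤ ENNReal.ofReal (avg (stdB n) g₀ w * avg (stdB n) g₁ w') * hTop g₁ := by
  have hW := fun g : RMetric (EV n) M => wellDefined hn g
  obtain ⟨Θ, hΘ⟩ := toTest (Vale.Agent.P207.npc_of_neg hN₁) h
  obtain ⟨Θ', hΘ'⟩ := toTest (Vale.Agent.P207.npc_of_neg hN₀) h'
  have h1 := defect hn hN₀ hN₁ (((hW g₀).1 _).2 rfl) (((hW g₁).1 _).2 rfl)
    (((hW g₀).2.1 _).2 rfl) (((hW g₁).2.1 _).2 rfl) (((hW g₀).2.2 _).2 rfl)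
    (((hW g₁).2.2 _).2 rfl) e₀ Θ Θ'
  rw [hΘ, hΘ'] at h1
  exact h1

theorem strict_le (hn : 2 ≤ n) (hN₁ : NegCurvature g₁) {A : ℝ} (hA : A < 1)
    (h : hLiou (stdB n) g₁ ≤ ENNReal.ofReal A * hTop g₁) : hLiou (stdB n) g₁ < hTop g₁ := by
  have hW := fun g : RMetric (EV n) M => wellDefined hn g
  exact strict_of_lt hn hN₁ (((hW g₁).1 _).2 rfl) (((hW g₁).2.1 _).2 rfl)
    (((hW g₁).2.2 _).2 rfl) hA h

theorem eq_of_sym (hn : 2 ≤ n) {g : RMetric (EV n) M} (hN : NegCurvature g)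
    (h : LocSymmetric g) : hLiou (stdB n) g = hTop g := by
  have hW := fun g : RMetric (EV n) M => wellDefined hn g
  exact Vale.Agent.P207.ksEntropy_eq_of_locSymmetric hn (((hW g).1 _).2 rfl)
    (((hW g).2.1 _).2 rfl) (((hW g).2.2 _).2 rfl) hN h

theorem one_le_of_eq (hn : 2 ≤ n) (hN₀ : NegCurvature g₀) (hN₁ : NegCurvature g₁)
    {F : I × UT g₀ → M} {w : UT g₀ → ℝ} (h : IsTestMap g₀ g₁ F w)
    {F' : I × UT g₁ → M} {w' : UT g₁ → ℝ} (h' : IsTestMap g₁ g₀ F' w')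
    (e₀ : hLiou (stdB n) g₀ = hTop g₀) (e₁ : hLiou (stdB n) g₁ = hTop g₁) :
    1 ≤ avg (stdB n) g₀ w * avg (stdB n) g₁ w' := by
  by_contra hcon
  exact (strict_le hn hN₁ (not_le.1 hcon) (defect_le hn hN₀ hN₁ h h' e₀)).ne e₁

theorem strict_of_sym (hn : 2 ≤ n) (hN₀ : NegCurvature g₀) (hN₁ : NegCurvature g₁)
    {F : I × UT g₀ → M} {w : UT g₀ → ℝ} (h : IsTestMap g₀ g₁ F w)
    {F' : I × UT g₁ → M} {w' : UT g₁ → ℝ} (h' : IsTestMap g₁ g₀ F' w')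
    (hs : LocSymmetric g₀) (hA : avg (stdB n) g₀ w * avg (stdB n) g₁ w' < 1) :
    hLiou (stdB n) g₁ < hTop g₁ ∧ ¬ LocSymmetric g₁ := by
  have h1 := strict_le hn hN₁ hA (defect_le hn hN₀ hN₁ h h' (eq_of_sym hn hN₀ hs))
  exact ⟨h1, fun h2 => h1.ne (eq_of_sym hn hN₁ h2)⟩

/-- The test map of a `C¹` map homotopic to the identity. -/
theorem isTestMap_of_map (hn : 2 ≤ n) {f : M → M} (h : IsC1Id (EV n) f) :
    ∃ F : I × UT g₀ → M, (∀ p, F (1, p) = f p.pt) ∧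
      IsTestMap g₀ g₁ F fun p => Real.sqrt (sqLen g₀ g₁ f p) := by
  obtain ⟨hf, H, hH, hH0, hH1⟩ := h
  have hφ : Vale.Agent.P207.IsGeoFlow g₀ (geoFlow g₀) := ((wellDefined hn g₀).1 _).2 rfl
  have hpt : Continuous fun p : UT g₀ => p.pt := Vale.Agent.P207.continuous_pt g₀
  refine ⟨fun q => H (q.1, q.2.pt), fun p => hH1 _, by fun_prop, fun p => hH0 _,
    (Vale.Agent.P207.R2.H193.continuous_sq (g₀ := g₀) (g₁ := g₁) hf).sqrt, fun p => ?_⟩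
  have e : ∀ (y : M), y = f p.pt → ∀ V : EV n,
      innerAt g₁ y (V : TangentSpace 𝓘(ℝ, EV n) y) (V : TangentSpace 𝓘(ℝ, EV n) y) =
        innerAt g₁ (f p.pt) (V : TangentSpace 𝓘(ℝ, EV n) (f p.pt))
          (V : TangentSpace 𝓘(ℝ, EV n) (f p.pt)) := by
    rintro _ rfl V
    rfl
  refine ⟨mfderiv 𝓘(ℝ, EV n) 𝓘(ℝ, EV n) f p.pt p.vec, ?_,
    le_of_eq (congrArg Real.sqrt (e _ (hH1 _) _))⟩
  simp only [hH1]
  exact Vale.Agent.P207.R2.H193.hasDerivAt_map hφ p (hf.mdifferentiable (by simp) _)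

omit [CompactSpace M] [T2Space M] [ConnectedSpace M] [MeasurableSpace M] [BorelSpace M] in
theorem sqLen_nonneg (f : M → M) (p : UT g₀) : 0 ≤ sqLen g₀ g₁ f p := by
  unfold sqLen
  by_cases h : mfderiv 𝓘(ℝ, EV n) 𝓘(ℝ, EV n) f p.pt p.vec = 0
  · rw [h]; simp [innerAt]
  · exact (g₁.pos _ _ h).le

/-- Cauchy-Schwarz and its equality case. -/
theorem energy_cs (hn : 2 ≤ n) {f : M → M} (h : IsC1Id (EV n) f) :
    stretch (stdB n) g₀ g₁ f ^ 2 ≤ energy (stdB n) g₀ g₁ f ∧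
      (energy (stdB n) g₀ g₁ f ≤ stretch (stdB n) g₀ g₁ f ^ 2 → ∀ p, sqLen g₀ g₁ f p = stretch (stdB n) g₀ g₁ f ^ 2) := by
  have hμ₀ : Vale.Agent.P207.IsRiemVol g₀ _ := ((wellDefined hn g₀).2.1 _).2 rfl
  have hm₀ : Vale.Agent.P207.IsLiouville g₀ _ _ := ((wellDefined hn g₀).2.2 _).2 rfl
  have := hm₀.1
  have hc : Continuous (sqLen g₀ g₁ f) :=
    Vale.Agent.P207.R2.H193.continuous_sq (g₀ := g₀) (g₁ := g₁) h.1
  have key : ∫ p, (Real.sqrt (sqLen g₀ g₁ f p) - stretch (stdB n) g₀ g₁ f) ^ 2 ∂(liou (stdB n) g₀) =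
      energy (stdB n) g₀ g₁ f - stretch (stdB n) g₀ g₁ f ^ 2 :=
    Vale.Agent.P207.R2.H193.sq_integral_sqrt_le (g₀ := g₀)
      (ν := liou (stdB n) g₀) hc (sqLen_nonneg f)
  have h1 : 0 ≤ ∫ p, (Real.sqrt (sqLen g₀ g₁ f p) - stretch (stdB n) g₀ g₁ f) ^ 2 ∂(liou (stdB n) g₀) :=
    integral_nonneg fun p => sq_nonneg _
  refine ⟨by linarith, fun h2 p => ?_⟩
  have h3 : ∫ p, (Real.sqrt (sqLen g₀ g₁ f p) - stretch (stdB n) g₀ g₁ f) ^ 2 ∂(liou (stdB n) g₀) = 0 := by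
    linarith
  have h4 := hm₀.eq_zero (by omega) hμ₀ ((hc.sqrt.sub continuous_const).pow 2)
    (fun p => sq_nonneg _) h3 p
  have h5 : Real.sqrt (sqLen g₀ g₁ f p) = stretch (stdB n) g₀ g₁ f := by
    have h6 : Real.sqrt (sqLen g₀ g₁ f p) - stretch (stdB n) g₀ g₁ f = 0 :=
      pow_eq_zero_iff (two_ne_zero) |>.1 h4
    linarith
  rw [← h5, Real.sq_sqrt (sqLen_nonneg f p)]

omit [CompactSpace M] [T2Space M] [ConnectedSpace M] [MeasurableSpace M] [BorelSpace M] in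
/-- `f` is a homothety if the length of the images of the unit vectors is constant. -/
theorem isHomothety_of {f : M → M} {c : ℝ} (h : ∀ p : UT g₀, sqLen g₀ g₁ f p = c) :
    IsHomothety g₀ g₁ f c := by
  intro x
  have key : ∀ v : TangentSpace 𝓘(ℝ, EV n) x,
      innerAt g₁ (f x) (mfderiv 𝓘(ℝ, EV n) 𝓘(ℝ, EV n) f x v)
        (mfderiv 𝓘(ℝ, EV n) 𝓘(ℝ, EV n) f x v) = c * innerAt g₀ x v v := by
    intro v
    rcases eq_or_ne v 0 with rfl | hv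
    · simp [innerAt]
    · have h1 := h (unitDir g₀ x v hv)
      have h0 : 0 < innerAt g₀ x v v := g₀.pos x v hv
      have h3 := Real.sqrt_pos.2 h0
      have h4 := Real.sq_sqrt h0.le
      have h6 : innerAt g₁ (f x)
          (mfderiv 𝓘(ℝ, EV n) 𝓘(ℝ, EV n) f x ((Real.sqrt (innerAt g₀ x v v))⁻¹ • v))
          (mfderiv 𝓘(ℝ, EV n) 𝓘(ℝ, EV n) f x ((Real.sqrt (innerAt g₀ x v v))⁻¹ • v)) = c := h1
      unfold innerAt at h6 h0 h3 h4 ⊢
      simp only [map_smul, smul_apply, smul_eq_mul] at h6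
      field_simp at h6
      rw [h6, h4, mul_comm]
  intro v w
  have h1 := key (v + w)
  have h2 := key v
  have h3 := key w
  unfold innerAt at h1 h2 h3 ⊢
  simp only [map_add, add_apply] at h1
  have h4 := g₀.symm x v w
  have h5 := g₁.symm (f x) (mfderiv 𝓘(ℝ, EV n) 𝓘(ℝ, EV n) f x v)
    (mfderiv 𝓘(ℝ, EV n) 𝓘(ℝ, EV n) f x w)
  rw [h2, h3, ← h4, ← h5] at h1
  linarith

/-- Energies: the product is at least one, with equality only for homotheties. -/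
theorem energy_ge (hn : 2 ≤ n) (hN₀ : NegCurvature g₀) (hN₁ : NegCurvature g₁)
    {f f' : M → M} (h : IsC1Id (EV n) f) (h' : IsC1Id (EV n) f')
    (e₀ : hLiou (stdB n) g₀ = hTop g₀) (e₁ : hLiou (stdB n) g₁ = hTop g₁) :
    1 ≤ stretch (stdB n) g₀ g₁ f * stretch (stdB n) g₁ g₀ f' ∧
    1 ≤ energy (stdB n) g₀ g₁ f * energy (stdB n) g₁ g₀ f' ∧
      (energy (stdB n) g₀ g₁ f * energy (stdB n) g₁ g₀ f' ≤ 1 → ∃ c : ℝ, 0 < c ∧ IsHomothety g₀ g₁ f c) := by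
  obtain ⟨F, -, hF⟩ := isTestMap_of_map (g₀ := g₀) (g₁ := g₁) hn h
  obtain ⟨F', -, hF'⟩ := isTestMap_of_map (g₀ := g₁) (g₁ := g₀) hn h'
  have h1 : 1 ≤ stretch (stdB n) g₀ g₁ f * stretch (stdB n) g₁ g₀ f' := one_le_of_eq hn hN₀ hN₁ hF hF' e₀ e₁
  obtain ⟨hc, hc'⟩ := energy_cs (g₀ := g₀) (g₁ := g₁) hn h
  obtain ⟨hd, -⟩ := energy_cs (g₀ := g₁) (g₁ := g₀) hn h'
  have ha : 0 ≤ stretch (stdB n) g₀ g₁ f := integral_nonneg fun p => Real.sqrt_nonneg _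
  have ha' : 0 ≤ stretch (stdB n) g₁ g₀ f' := integral_nonneg fun p => Real.sqrt_nonneg _
  have h2 : 1 ≤ stretch (stdB n) g₀ g₁ f ^ 2 * stretch (stdB n) g₁ g₀ f' ^ 2 := by
    rw [← mul_pow]
    exact one_le_pow₀ h1
  have h3 : stretch (stdB n) g₀ g₁ f ^ 2 * stretch (stdB n) g₁ g₀ f' ^ 2 ≤ energy (stdB n) g₀ g₁ f * energy (stdB n) g₁ g₀ f' :=
    mul_le_mul hc hd (sq_nonneg _) ((sq_nonneg _).trans hc)
  refine ⟨h1, h2.trans h3, fun h4 => ⟨stretch (stdB n) g₀ g₁ f ^ 2, ?_, ?_⟩⟩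
  · have : stretch (stdB n) g₀ g₁ f ≠ 0 := by
      intro h0
      rw [h0] at h1
      norm_num at h1
    positivity
  · apply isHomothety_of
    apply hc'
    have hpos : 0 < stretch (stdB n) g₁ g₀ f' ^ 2 := by
      have : stretch (stdB n) g₁ g₀ f' ≠ 0 := by
        intro h0
        rw [h0] at h1
        norm_num at h1
      positivity
    have h5 : energy (stdB n) g₀ g₁ f * stretch (stdB n) g₁ g₀ f' ^ 2 ≤ energy (stdB n) g₀ g₁ f * energy (stdB n) g₁ g₀ f' :=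
      mul_le_mul_of_nonneg_left hd ((sq_nonneg _).trans hc)
    by_contra h6
    push Not at h6
    have h7 := mul_lt_mul_of_pos_right h6 hpos
    linarith

/-- The strict inequality from maps. -/
theorem strict_of_maps (hn : 2 ≤ n) (hN₀ : NegCurvature g₀) (hN₁ : NegCurvature g₁)
    {f f' : M → M} (h : IsC1Id (EV n) f) (h' : IsC1Id (EV n) f') (hs : LocSymmetric g₀)
    (hA : stretch (stdB n) g₀ g₁ f * stretch (stdB n) g₁ g₀ f' < 1 ∨ energy (stdB n) g₀ g₁ f * energy (stdB n) g₁ g₀ f' < 1) :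
    hLiou (stdB n) g₁ < hTop g₁ ∧ ¬ LocSymmetric g₁ := by
  obtain ⟨F, -, hF⟩ := isTestMap_of_map (g₀ := g₀) (g₁ := g₁) hn h
  obtain ⟨F', -, hF'⟩ := isTestMap_of_map (g₀ := g₁) (g₁ := g₀) hn h'
  have h1 : stretch (stdB n) g₀ g₁ f * stretch (stdB n) g₁ g₀ f' < 1 := by
    rcases hA with hA | hA
    · exact hA
    · obtain ⟨hc, -⟩ := energy_cs (g₀ := g₀) (g₁ := g₁) hn h
      obtain ⟨hd, -⟩ := energy_cs (g₀ := g₁) (g₁ := g₀) hn h'
      by_contra hcon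
      push Not at hcon
      have h2 : 1 ≤ stretch (stdB n) g₀ g₁ f ^ 2 * stretch (stdB n) g₁ g₀ f' ^ 2 := by
        rw [← mul_pow]
        exact one_le_pow₀ hcon
      have h3 : stretch (stdB n) g₀ g₁ f ^ 2 * stretch (stdB n) g₁ g₀ f' ^ 2 ≤ energy (stdB n) g₀ g₁ f * energy (stdB n) g₁ g₀ f' :=
        mul_le_mul hc hd (sq_nonneg _) ((sq_nonneg _).trans hc)
      linarith
  exact strict_of_sym hn hN₀ hN₁ hF hF' hs h1

end Vale.Agent.P207T
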