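import Vale.Agent.P207.BlkC1
import Vale.Agent.P207.BlkG2

/-!
# P207, test maps: the homotopy has a bounded length, maps homotopic to the identity
-/

open scoped Manifold ContDiff ENNReal Topology unitInterval
open Bundle MeasureTheory Set Filter

noncomputable section

namespace Vale.Agent.P207.R2.H193

open Vale.Agent.P255 (RMetric coefIn Gam Riem IsGeo Metric Npc ExpSys toMetric geo expg cc)
open Vale.Agent.P255.ExpSys (Cl)
open Path.Homotopic.Quotient

section Abstract

variable {E M : Type} [NormedAddCommGroup E] [NormedSpace ℝ E] [TopologicalSpace M]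

/-- A path which stays near a point is short. -/
theorem len_small (S : ExpSys E M) {ρ η : ℝ} (hη : 0 < η) (h3 : 3 * η ≤ ρ)
    (hρ : ∀ (x : M) (α : Cl x x), S.len α < ρ → α = Path.Homotopic.Quotient.refl x)
    {x y z : M} (γ : Path y z) (hγ : ∀ t, γ t ∈ C1.nb S x η) :
    S.len (Path.Homotopic.Quotient.mk γ) < 2 * η := by
  obtain ⟨μ, hμ⟩ : ∃ μ : Cl x y, S.len μ < η := by
    have h := hγ 0
    rw [γ.source] at h
    exact h
  have hγ0 : γ.toContinuousMap 0 = S.e x (S.vec μ) := by rw [S.e_vec]; exact γ.source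
  set c := (S.cov x).liftPath γ.toContinuousMap (S.vec μ) hγ0 with hc
  have hl : ∀ t, S.e x (c t) = γ t := fun t =>
    congrFun ((S.cov x).liftPath_lifts γ.toContinuousMap (S.vec μ) hγ0) t
  have hc0 : c 0 = S.vec μ := (S.cov x).liftPath_zero _ _ _
  have hc1 : S.vec (μ.trans (Path.Homotopic.Quotient.mk γ)) = c 1 := S.vec_trans μ γ c hc0 hl
  have dich : ∀ t : I, S.nrm x (c t) < η ∨ ρ - η ≤ S.nrm x (c t) := by
    intro t
    obtain ⟨α, hα⟩ := hγ t
    by_contra hcon
    push Not at hcon
    obtain ⟨h1, h2⟩ := hcon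
    have hβ : S.len (Path.Homotopic.Quotient.mk (S.rayTo x (γ t) (c t) (hl t))) = S.nrm x (c t) :=
      C1.len_mk_rayTo S x _ _ (hl t)
    have hαβ : α = Path.Homotopic.Quotient.mk (S.rayTo x (γ t) (c t) (hl t)) := by
      apply C1.eq_of_len_lt S hρ
      have h4 := S.len_trans α (Path.Homotopic.Quotient.mk (S.rayTo x (γ t) (c t) (hl t))).symm
      rw [S.len_symm, hβ] at h4
      linarith
    rw [hαβ, hβ] at hα
    linarith
  have hcont : Continuous fun t : I => S.nrm x (c t) := (C1.continuous_nrm S x).comp c.continuous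
  have h0 : S.nrm x (c 0) < η := by rw [hc0]; exact hμ
  have h1 : S.nrm x (c 1) < η := by
    rcases dich 1 with h | h
    · exact h
    · exfalso
      have hiv := intermediate_value_univ (0 : I) 1 hcont
      obtain ⟨t, ht⟩ := hiv (show η ∈ Icc _ _ from ⟨h0.le, by linarith⟩)
      have ht' : S.nrm x (c t) = η := ht
      rcases dich t with h' | h'
      · linarith
      · linarith
  have h5 := S.len_trans μ.symm (μ.trans (Path.Homotopic.Quotient.mk γ))
  rw [C1.symm_trans_cancel_left, S.len_symm] at h5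
  have e : S.len (μ.trans (Path.Homotopic.Quotient.mk γ)) = S.nrm x (c 1) := by
    rw [ExpSys.len, hc1]
  linarith

/-- The tracks of a homotopy on a compact space have bounded lengths. -/
theorem exists_bound [FiniteDimensional ℝ E] [CompactSpace M] [T1Space M] (S : ExpSys E M)
    {X : Type} [MetricSpace X] [CompactSpace X] {F : I × X → M} (hF : Continuous F) :
    ∃ R : ℝ, ∀ p : X, S.len (Path.Homotopic.Quotient.mk
      (⟨⟨fun s => F (s, p), hF.comp (by fun_prop)⟩, rfl, rfl⟩ : Path (F (0, p)) (F (1, p)))) ≤ R := by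
  obtain ⟨ρ, hρ0, hρ⟩ := C1.exists_systole S
  obtain ⟨δ, hδ, hleb⟩ := lebesgue_number_lemma_of_metric (s := (univ : Set (I × X)))
    (c := fun x : M => F ⁻¹' C1.nb S x (ρ / 3)) isCompact_univ
    (fun x => (C1.isOpen_nb S x _).preimage hF)
    (fun q _ => mem_iUnion.2 ⟨F q, C1.mem_nb_self S _ (by positivity)⟩)
  obtain ⟨N, hN⟩ := exists_nat_gt (1 / δ)
  have hN0 : (0 : ℝ) < N := lt_trans (by positivity) hN
  have hNδ : 1 / (N : ℝ) < δ := by
    rw [div_lt_iff₀ hN0]
    rw [div_lt_iff₀ hδ] at hN
    linarith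
  refine ⟨2 * (ρ / 3) * N, fun p => ?_⟩
  set γ : Path (F (0, p)) (F (1, p)) := ⟨⟨fun s => F (s, p), hF.comp (by fun_prop)⟩, rfl, rfl⟩
    with hγ
  have hγ0 : γ.toContinuousMap 0 = S.e (F (0, p)) 0 := by rw [S.zero]; exact γ.source
  set Γ := (S.cov (F (0, p))).liftPath γ.toContinuousMap 0 hγ0 with hΓ
  have hl : ∀ t, S.e (F (0, p)) (Γ t) = γ t := fun t =>
    congrFun ((S.cov (F (0, p))).liftPath_lifts γ.toContinuousMap 0 hγ0) t
  have hΓ0 : Γ 0 = 0 := (S.cov (F (0, p))).liftPath_zero _ _ _
  have hvec : S.vec (Path.Homotopic.Quotient.mk γ) = Γ 1 := S.vec_mk γ Γ hΓ0 hl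
  let c : ℝ → M := fun t => F (projIcc 0 1 zero_le_one t, p)
  have hc : Continuous c := hF.comp (by fun_prop)
  let V : ℝ → E := fun t => Γ (projIcc 0 1 zero_le_one t)
  have hV : Continuous V := by fun_prop
  have hVc : ∀ t, S.e (F (0, p)) (V t) = c t := fun t => hl _
  have hstep : ∀ s t, S.nrm (F (0, p)) (V t) ≤
      S.len (Path.Homotopic.Quotient.mk (G2.seg hc s t)) + S.nrm (F (0, p)) (V s) := by
    intro s t
    let μ : Cl (F (0, p)) (c s) := Path.Homotopic.Quotient.mk (S.rayTo (F (0, p)) (c s) (V s) (hVc s))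
    have hμ : S.vec μ = V s := S.vec_rayTo _ _ _ _
    have h2 := S.vec_trans μ (G2.seg hc s t) ⟨fun τ : I => V (s + τ * (t - s)), by fun_prop⟩
      (by simp [hμ]) (by
        intro τ
        simp only [ContinuousMap.coe_mk, G2.seg_apply]
        exact hVc _)
    simp only [ContinuousMap.coe_mk, Icc.coe_one, one_mul, add_sub_cancel] at h2
    have h3 := S.compare' μ (Path.Homotopic.Quotient.mk (G2.seg hc s t))
    rw [h2, hμ] at h3
    have h4 := S.nrm_add (F (0, p)) (V t - V s) (V s)
    rw [sub_add_cancel] at h4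
    linarith
  have hind : ∀ k : ℕ, k ≤ N → S.nrm (F (0, p)) (V (k / N)) ≤ 2 * (ρ / 3) * k := by
    intro k
    induction k with
    | zero =>
      intro _
      have h1 : V ((0 : ℕ) / N) = 0 := by
        change Γ _ = 0
        rw [Nat.cast_zero, zero_div, projIcc_left]
        exact hΓ0
      rw [h1, S.nrm_zero]
      simp
    | succ k ih =>
      intro hk
      have ih' := ih (by omega)
      have h1 := hstep (k / N) ((k + 1 : ℕ) / N)
      have hkN : (k : ℝ) + 1 ≤ N := by exact_mod_cast hk
      have hk0 : (0 : ℝ) ≤ k := Nat.cast_nonneg k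
      have hk1 : (k : ℝ) / N ∈ Icc (0 : ℝ) 1 :=
        ⟨by positivity, by rw [div_le_one hN0]; linarith⟩
      obtain ⟨x, hx⟩ := hleb (⟨(k : ℝ) / N, hk1⟩, p) (mem_univ _)
      have h2 : S.len (Path.Homotopic.Quotient.mk (G2.seg hc (k / N) ((k + 1 : ℕ) / N))) <
          2 * (ρ / 3) := by
        refine len_small S (by positivity) (by linarith) hρ (x := x) _ fun τ => ?_
        rw [G2.seg_apply]
        have e1 : ((k + 1 : ℕ) : ℝ) / N - k / N = 1 / N := by
          push_cast
          field_simp
          ring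
        rw [e1]
        have hτ0 := τ.2.1
        have hτ1 := τ.2.2
        have hm : (k : ℝ) / N + τ * (1 / N) ∈ Icc (0 : ℝ) 1 := by
          refine ⟨by positivity, ?_⟩
          have h5 : (τ : ℝ) * (1 / N) ≤ 1 / N := by
            have : (0 : ℝ) ≤ 1 / N := by positivity
            nlinarith
          have h6 : (k : ℝ) / N + 1 / N ≤ 1 := by
            rw [← add_div, div_le_one hN0]
            exact hkN
          linarith
        have h7 : c ((k : ℝ) / N + τ * (1 / N)) = F (⟨_, hm⟩, p) := by
          change F (projIcc 0 1 zero_le_one _, p) = _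
          rw [projIcc_of_mem zero_le_one hm]
        rw [h7]
        apply hx
        rw [Metric.mem_ball, Prod.dist_eq, dist_self, max_eq_left dist_nonneg, Subtype.dist_eq,
          Real.dist_eq]
        have h8 : (k : ℝ) / N + τ * (1 / N) - k / N = τ * (1 / N) := by ring
        simp only
        rw [h8, abs_of_nonneg (by positivity)]
        refine lt_of_le_of_lt ?_ hNδ
        have : (0 : ℝ) ≤ 1 / N := by positivity
        nlinarith
      push_cast at h1 h2 ⊢
      linarith
  have hfin := hind N le_rfl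
  rw [div_self hN0.ne'] at hfin
  have h9 : V 1 = Γ 1 := by
    change Γ _ = _
    rw [projIcc_right]
    rfl
  rw [h9, ← hvec] at hfin
  exact hfin

end Abstract

end Vale.Agent.P207.R2.H193
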