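import Vale.Agent.P207.R2.H193.Maps
import Vale.Agent.P207.Bridge
import Vale.Agent.P207.H608.Stretch
import Vale.Agent.P207.R2.H193.Defs

/-!
# P207, test maps: the theorems
-/

open scoped Manifold ContDiff ENNReal Topology unitInterval
open Bundle MeasureTheory Set Filter

noncomputable section

namespace Vale.Agent.P207.R2.H193

open Vale.Agent.P255 (RMetric coefIn Gam Riem IsGeo Metric Npc ExpSys toMetric geo expg cc)
open Vale.Agent.P207.H608 (TestMap)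

variable {n : ℕ} {M : Type} [TopologicalSpace M] [ChartedSpace (EV n) M]
  [IsManifold 𝓘(ℝ, EV n) ∞ M] [CompactSpace M] [T2Space M]
  {g₀ g₁ : RMetric (EV n) M} {φ : ℝ → UT g₀ → UT g₀}

/-- A test map from elementary data. -/
theorem exists_testMap (h₁ : Npc (mt g₁)) {F : I × UT g₀ → M} {w : UT g₀ → ℝ}
    (hF : Continuous F) (hF0 : ∀ p, F (0, p) = p.pt) (hw : Continuous w)
    (hV : ∀ p, ∃ V : EV n, HasDerivAt (fun t => chartAt (EV n) (F (1, p)) (F (1, φ t p))) V 0 ∧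
      (sys g₁ h₁).nrm (F (1, p)) V ≤ w p) :
    ∃ Θ : TestMap g₀ g₁ h₁ φ, Θ.w = w := by
  have := compactSpace_UT g₀
  have := t2Space_UT g₀
  have := metrizableSpace_UT g₀
  let : MetricSpace (UT g₀) := TopologicalSpace.metrizableSpaceMetric (UT g₀)
  obtain ⟨R, hR⟩ := exists_bound (sys g₁ h₁) hF
  choose V hV1 hV2 using hV
  exact ⟨⟨F, V, w, R, hF, hF0, hw, hV1, hV2, hR⟩, rfl⟩

/-- The velocity of the base curve of an orbit. -/
theorem hasDerivAt_pt (hφ : IsGeoFlow g₀ φ) (p : UT g₀) :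
    HasDerivAt (fun t => chartAt (EV n) p.pt (φ t p).pt) (p.vec : EV n) 0 := by
  have hgeo := P255.isGeodesic_geo (mt g₀) p.pt (p.vec : EV n)
  have hcc : (fun t => (φ t p).pt) = geo (mt g₀) p.pt (p.vec : EV n) := by
    funext t; exact hφ.pt_eq t p
  have hd : HasDerivAt (cc (E := EV n) (fun t => (φ t p).pt) (φ 0 p).pt)
      ((φ 0 p).vec : EV n) 0 := by
    have h1 := (hgeo.eqn (φ 0 p).pt 0 (mem_univ _) (by
      rw [← hφ.pt_eq]; exact mem_chart_source _ _)).1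
    have h2 := hφ.vec_eq 0 p
    rw [hcc]
    have h3 := h1.hasDerivAt
    exact h2 ▸ h3
  have key : ∀ q : UT g₀, q = φ 0 p →
      HasDerivAt (cc (E := EV n) (fun t => (φ t p).pt) q.pt) (q.vec : EV n) 0 := by
    rintro _ rfl
    exact hd
  exact key p (hφ.zero p).symm

/-- The velocity of the image of an orbit under a differentiable map. -/
theorem hasDerivAt_map (hφ : IsGeoFlow g₀ φ) {f : M → M} (p : UT g₀)
    (hf : MDifferentiableAt 𝓘(ℝ, EV n) 𝓘(ℝ, EV n) f p.pt) :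
    HasDerivAt (fun t => chartAt (EV n) (f p.pt) (f (φ t p).pt))
      (mfderiv 𝓘(ℝ, EV n) 𝓘(ℝ, EV n) f p.pt p.vec : EV n) 0 := by
  have h1 := hasDerivAt_pt hφ p
  have h2 : HasFDerivAt (chartAt (EV n) (f p.pt) ∘ f ∘ (chartAt (EV n) p.pt).symm)
      (mfderiv 𝓘(ℝ, EV n) 𝓘(ℝ, EV n) f p.pt : EV n →L[ℝ] EV n) (chartAt (EV n) p.pt p.pt) := by
    have h3 := hf.hasMFDerivAt.2
    simp only [mfld_simps] at h3
    exact hasFDerivWithinAt_univ.1 h3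
  have h0 : chartAt (EV n) p.pt (φ 0 p).pt = chartAt (EV n) p.pt p.pt := by rw [hφ.zero]
  have h4 : HasDerivAt ((chartAt (EV n) (f p.pt) ∘ f ∘ (chartAt (EV n) p.pt).symm) ∘
      fun t => chartAt (EV n) p.pt (φ t p).pt)
      ((mfderiv 𝓘(ℝ, EV n) 𝓘(ℝ, EV n) f p.pt : EV n →L[ℝ] EV n) (p.vec : EV n)) 0 := by
    apply HasFDerivAt.comp_hasDerivAt
    · rw [h0]; exact h2
    · exact h1
  refine h4.congr_of_eventuallyEq ?_
  have hc : ContinuousAt (fun t => (φ t p).pt) 0 :=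
    ((continuous_pt g₀).comp (hφ.continuous_left p)).continuousAt
  have hs : ∀ᶠ t in 𝓝 (0 : ℝ), (φ t p).pt ∈ (chartAt (EV n) p.pt).source := by
    apply hc.preimage_mem_nhds
    rw [hφ.zero]
    exact (chartAt (EV n) p.pt).open_source.mem_nhds (mem_chart_source _ _)
  filter_upwards [hs] with t ht
  simp only [Function.comp]
  rw [(chartAt (EV n) p.pt).left_inv ht]

/-- The length of the derivative of a `C¹` map is continuous on the unit tangent bundle. -/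
theorem continuous_sq {f : M → M} (hf : ContMDiff 𝓘(ℝ, EV n) 𝓘(ℝ, EV n) 1 f) :
    Continuous fun p : UT g₀ => g₁.inner (f p.pt)
      (mfderiv 𝓘(ℝ, EV n) 𝓘(ℝ, EV n) f p.pt p.vec)
      (mfderiv 𝓘(ℝ, EV n) 𝓘(ℝ, EV n) f p.pt p.vec) :=
  (continuous_inner_TB g₁).comp ((hf.continuous_tangentMap (by simp)).comp (continuous_val g₀))

/-- The test map of a `C¹` map homotopic to the identity. -/
theorem exists_testMap_of_map (hφ : IsGeoFlow g₀ φ) (h₁ : Npc (mt g₁)) {f : M → M}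
    (hf : ContMDiff 𝓘(ℝ, EV n) 𝓘(ℝ, EV n) 1 f) {H : I × M → M} (hH : Continuous H)
    (hH0 : ∀ x, H (0, x) = x) (hH1 : ∀ x, H (1, x) = f x) :
    ∃ Θ : TestMap g₀ g₁ h₁ φ, Θ.w = fun p => Real.sqrt (g₁.inner (f p.pt)
      (mfderiv 𝓘(ℝ, EV n) 𝓘(ℝ, EV n) f p.pt p.vec)
      (mfderiv 𝓘(ℝ, EV n) 𝓘(ℝ, EV n) f p.pt p.vec)) := by
  have hpt := continuous_pt g₀
  refine exists_testMap h₁ (F := fun q => H (q.1, q.2.pt)) (by fun_prop) (fun p => hH0 _)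
    (continuous_sq hf).sqrt fun p => ?_
  refine ⟨mfderiv 𝓘(ℝ, EV n) 𝓘(ℝ, EV n) f p.pt p.vec, ?_, ?_⟩
  · simp only [hH1]
    exact hasDerivAt_map hφ p (hf.mdifferentiable (by simp) _)
  · refine le_of_eq ?_
    simp only [hH1]
    unfold ExpSys.nrm
    rw [sys_ip]
    exact congrArg Real.sqrt (ip_eq g₁ _ _ _)

section Entropy

variable [MeasurableSpace M] [BorelSpace M]

/-- One direction, with the exact constant. -/
theorem one_sided' [ConnectedSpace M] (hn : 2 ≤ n) (hN₀ : NegCurvature g₀)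
    (hN₁ : NegCurvature g₁)
    {φ₁ : ℝ → UT g₁ → UT g₁} {μ₀ : Measure M} {m₀ : Measure (UT g₀)}
    (hφ : IsGeoFlow g₀ φ) (hφ₁ : IsGeoFlow g₁ φ₁) (hμ₀ : IsRiemVol g₀ μ₀)
    (hm₀ : IsLiouville g₀ μ₀ m₀) (Θ : TestMap g₀ g₁ (npc_of_neg hN₁) φ) :
    ksEntropy m₀ (φ 1) ≤ ENNReal.ofReal (∫ p, Θ.w p ∂m₀) * topEntropy (φ₁ 1) := by
  have hT : topEntropy (φ₁ 1) ≠ ⊤ := by
    obtain ⟨s, hs, hG⟩ := exists_growthLE (sys g₁ (npc_of_neg hN₁))
    exact ne_top_of_le_ne_top ENNReal.ofReal_ne_top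
      (topEntropy_le_of_growthLE hφ₁ (npc_of_neg hN₁) hs hG)
  have hA₀ := Θ.integral_nonneg m₀
  have key : ∀ ε : ℝ, 0 < ε →
      ksEntropy m₀ (φ 1) ≤ ENNReal.ofReal ((∫ p, Θ.w p ∂m₀) + ε) * topEntropy (φ₁ 1) := by
    intro ε hε
    exact H608.one_sided hn hN₀ (npc_of_neg hN₁) hφ hφ₁ hμ₀ hm₀ Θ (by positivity) (by linarith)
  have hlim : Tendsto (fun ε : ℝ => ENNReal.ofReal ((∫ p, Θ.w p ∂m₀) + ε) * topEntropy (φ₁ 1))
      (𝓝[>] 0) (𝓝 (ENNReal.ofReal (∫ p, Θ.w p ∂m₀) * topEntropy (φ₁ 1))) := by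
    apply ENNReal.Tendsto.mul_const _ (Or.inr hT)
    apply tendsto_nhdsWithin_of_tendsto_nhds
    apply ENNReal.tendsto_ofReal
    have h1 : Continuous fun ε : ℝ => (∫ p, Θ.w p ∂m₀) + ε := by fun_prop
    have h2 := h1.tendsto 0
    rwa [add_zero] at h2
  refine ge_of_tendsto hlim ?_
  filter_upwards [self_mem_nhdsWithin] with ε hε
  exact key ε hε

/-- Both directions: the entropy defect of `g₁`. -/
theorem defect [ConnectedSpace M] (hn : 2 ≤ n) (hN₀ : NegCurvature g₀)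
    (hN₁ : NegCurvature g₁)
    {φ₁ : ℝ → UT g₁ → UT g₁} {μ₀ μ₁ : Measure M} {m₀ : Measure (UT g₀)} {m₁ : Measure (UT g₁)}
    (hφ : IsGeoFlow g₀ φ) (hφ₁ : IsGeoFlow g₁ φ₁) (hμ₀ : IsRiemVol g₀ μ₀)
    (hμ₁ : IsRiemVol g₁ μ₁) (hm₀ : IsLiouville g₀ μ₀ m₀) (hm₁ : IsLiouville g₁ μ₁ m₁)
    (e₀ : ksEntropy m₀ (φ 1) = topEntropy (φ 1))
    (Θ₀ : TestMap g₀ g₁ (npc_of_neg hN₁) φ) (Θ₁ : TestMap g₁ g₀ (npc_of_neg hN₀) φ₁) :
    ksEntropy m₁ (φ₁ 1) ≤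
      ENNReal.ofReal ((∫ p, Θ₀.w p ∂m₀) * ∫ p, Θ₁.w p ∂m₁) * topEntropy (φ₁ 1) := by
  have hS₀ := one_sided' hn hN₀ hN₁ hφ hφ₁ hμ₀ hm₀ Θ₀
  have hS₁ := one_sided' hn hN₁ hN₀ hφ₁ hφ hμ₁ hm₁ Θ₁
  rw [ENNReal.ofReal_mul (Θ₀.integral_nonneg m₀), mul_comm (ENNReal.ofReal _), mul_assoc]
  refine hS₁.trans (mul_le_mul_right ?_ _)
  rw [← e₀]
  exact hS₀

/-- a strict inequality -/
theorem strict_of_lt [ConnectedSpace M] (hn : 2 ≤ n) (hN₁ : NegCurvature g₁)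
    {φ₁ : ℝ → UT g₁ → UT g₁} {μ₁ : Measure M} {m₁ : Measure (UT g₁)}
    (hφ₁ : IsGeoFlow g₁ φ₁) (hμ₁ : IsRiemVol g₁ μ₁) (hm₁ : IsLiouville g₁ μ₁ m₁)
    {A : ℝ} (hA : A < 1) (h : ksEntropy m₁ (φ₁ 1) ≤ ENNReal.ofReal A * topEntropy (φ₁ 1)) :
    ksEntropy m₁ (φ₁ 1) < topEntropy (φ₁ 1) := by
  have := hm₁.1
  have hpos : 0 < topEntropy (φ₁ 1) := topEntropy_pos hn hφ₁ hN₁
  have hks : ksEntropy m₁ (φ₁ 1) ≠ ⊤ :=
    ksEntropy_ne_top hφ₁ (npc_of_neg hN₁) fun t => hm₁.measurePreserving (by omega) hφ₁ hμ₁ t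
  by_contra hcon
  push Not at hcon
  have hT : topEntropy (φ₁ 1) ≠ ⊤ := ne_top_of_le_ne_top hks hcon
  have h3 : ENNReal.ofReal A < 1 := by rwa [← ENNReal.ofReal_one, ENNReal.ofReal_lt_ofReal_iff one_pos]
  have h4 := ENNReal.mul_lt_mul_left hpos.ne' hT h3
  rw [one_mul] at h4
  exact absurd (h.trans_lt h4) (not_lt.2 hcon)

omit [MeasurableSpace M] [BorelSpace M] in
/-- Cauchy-Schwarz for a continuous nonnegative function -/
theorem sq_integral_sqrt_le {ν : Measure (UT g₀)} [IsProbabilityMeasure ν] {s : UT g₀ → ℝ}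
    (hs : Continuous s) (h0 : ∀ p, 0 ≤ s p) :
    ∫ p, (Real.sqrt (s p) - ∫ q, Real.sqrt (s q) ∂ν) ^ 2 ∂ν =
      ∫ p, s p ∂ν - (∫ p, Real.sqrt (s p) ∂ν) ^ 2 := by
  have := compactSpace_UT g₀
  have hi1 : Integrable (fun p => Real.sqrt (s p)) ν :=
    hs.sqrt.integrable_of_hasCompactSupport (HasCompactSupport.of_compactSpace _)
  have hi2 : Integrable s ν := hs.integrable_of_hasCompactSupport (HasCompactSupport.of_compactSpace _)
  set A := ∫ q, Real.sqrt (s q) ∂ν with hA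
  have e : ∀ p, (Real.sqrt (s p) - A) ^ 2 = s p - 2 * A * Real.sqrt (s p) + A ^ 2 := by
    intro p
    have := Real.sq_sqrt (h0 p)
    nlinarith
  simp only [e]
  have h3 : Integrable (fun p => 2 * A * Real.sqrt (s p)) ν := hi1.const_mul _
  have h4 : Integrable (fun p => s p - 2 * A * Real.sqrt (s p)) ν := hi2.sub h3
  rw [integral_add h4 (integrable_const _), integral_sub hi2 h3, integral_const_mul, ← hA]
  simp
  ring

end Entropy

end Vale.Agent.P207.R2.H193
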